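import Vale.Agent.P042.A.FilA

/-! # P042 A/AdjA (TASK; helper names end with _aaa): adjoining a root: the basis and the derivation.
`adj_basis`: `e.smulTower` of `(AdjoinRoot.powerBasis' hg).basis` reindexed to `Fin r` (`AdjoinRoot.powerBasis'_dim`, `Module.Basis.smulTower_apply`, `PowerBasis.basis_eq_pow`, `Algebra.smul_def`).
`adj_der`: let `G ^ δ = G.sum fun n a => monomial n (δ a)` (a `K`-linear map `Δ` of `A[X]` with `coeff n (Δ G) = δ (coeff n G)` and the Leibniz rule: `coeff_mul`); `Θ G = derivative g * Δ G - Δ g * derivative G` is `K`-linear, satisfies Leibniz and `Θ g = 0`, so `Θ (g * q) = g * Θ q`;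
`δ' z = AdjoinRoot.mk g (Θ (AdjoinRoot.modByMonicHom hg z))` (restrict scalars), and `δ' (mk G) = mk (Θ G)` (`modByMonic_add_div`). -/

namespace Vale.Agent.P042.S

open Finset Polynomial

variable {K A ι : Type} [Field K] [CommRing A] [Algebra K A] [Algebra K[X] A] [IsScalarTower K K[X] A]
  [Fintype ι] {e : Module.Basis ι K[X] A} {δ : A →ₗ[K] A} {m : ℕ}

theorem adj_basis [Nontrivial A] (e : Module.Basis ι K[X] A) {g : A[X]} (hg : g.Monic) {r : ℕ}
    (hr : g.natDegree = r) : ∃ e' : Module.Basis (ι × Fin r) K[X] (AdjoinRoot g),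
      ∀ i j, e' (i, j) = AdjoinRoot.of g (e i) * AdjoinRoot.root g ^ j.val := by
  subst hr
  refine ⟨e.smulTower (AdjoinRoot.powerBasis' hg).basis, fun i j => ?_⟩
  refine (Module.Basis.smulTower_apply e (AdjoinRoot.powerBasis' hg).basis (i, j)).trans ?_
  rw [PowerBasis.basis_eq_pow, Algebra.smul_def]
  rfl

theorem coef_der_aaa (hδ : ∀ a b, δ (a * b) = a * δ b + δ a * b) : ∃ Δ : A[X] →ₗ[K] A[X],
    (∀ n a, Δ (monomial n a) = monomial n (δ a)) ∧ ∀ p q, Δ (p * q) = p * Δ q + Δ p * q := by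
  have h1 : ∀ n a, lsum (R := K) (fun n => (monomial n : A →ₗ[A] A[X]).restrictScalars K ∘ₗ δ)
      (monomial n a) = monomial n (δ a) := fun n a => by
    rw [lsum_apply]
    exact sum_monomial_index a _ (LinearMap.map_zero _)
  refine ⟨_, h1, fun p q => ?_⟩
  induction p using Polynomial.induction_on' with
  | add p p' hp hp' => simp only [add_mul, map_add, hp, hp']; ring
  | monomial n a =>
    induction q using Polynomial.induction_on' with
    | add q q' hq hq' => simp only [mul_add, map_add, hq, hq']; ring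
    | monomial k b => simp only [monomial_mul_monomial, h1, hδ, map_add]

theorem adj_der (hδ : ∀ a b, δ (a * b) = a * δ b + δ a * b) {g : A[X]} (hg : g.Monic) :
    ∃ δ' : AdjoinRoot g →ₗ[K] AdjoinRoot g, (∀ a b, δ' (a * b) = a * δ' b + δ' a * b) ∧
      (∀ a, δ' (AdjoinRoot.of g a) = AdjoinRoot.mk g (derivative g) * AdjoinRoot.of g (δ a)) ∧
      δ' (AdjoinRoot.root g) =
        -∑ n ∈ range (g.natDegree + 1), AdjoinRoot.of g (δ (g.coeff n)) * AdjoinRoot.root g ^ n := by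
  obtain ⟨Δ, h1, h2⟩ := coef_der_aaa hδ
  obtain ⟨Θ, hΘ⟩ : ∃ Θ : A[X] →ₗ[K] A[X], ∀ G, Θ G = derivative g * Δ G - Δ g * derivative G :=
    ⟨LinearMap.mulLeft K (derivative g) ∘ₗ Δ - LinearMap.mulLeft K (Δ g) ∘ₗ
      (derivative : A[X] →ₗ[A] A[X]).restrictScalars K, fun _ => rfl⟩
  have h3 : ∀ p q, Θ (p * q) = p * Θ q + Θ p * q := fun p q => by
    rw [hΘ, hΘ, hΘ, h2, derivative_mul]
    ring
  have h4 : Θ g = 0 := by
    rw [hΘ]
    ring
  obtain ⟨δ', h5⟩ : ∃ δ' : AdjoinRoot g →ₗ[K] AdjoinRoot g,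
      ∀ G, δ' (AdjoinRoot.mk g G) = AdjoinRoot.mk g (Θ G) := by
    refine ⟨(AdjoinRoot.mkₐ g).toLinearMap.restrictScalars K ∘ₗ Θ ∘ₗ
      (AdjoinRoot.modByMonicHom hg).restrictScalars K, fun G => ?_⟩
    have e1 : Θ G = Θ (G %ₘ g) + g * Θ (G /ₘ g) := by
      conv_lhs => rw [← modByMonic_add_div G g, map_add, h3, h4, zero_mul, add_zero]
    rw [e1, map_add, map_mul, AdjoinRoot.mk_self, zero_mul, add_zero,
      ← AdjoinRoot.modByMonicHom_mk hg]
    rfl
  have h6 : δ 1 = 0 := by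
    have e1 := hδ 1 1
    rw [mul_one, one_mul, mul_one] at e1
    exact left_eq_add.1 e1
  refine ⟨δ', fun a b => ?_, fun a => ?_, ?_⟩
  · obtain ⟨p, rfl⟩ := AdjoinRoot.mk_surjective a
    obtain ⟨q, rfl⟩ := AdjoinRoot.mk_surjective b
    rw [← map_mul, h5, h5, h5, h3, map_add, map_mul, map_mul]
  · rw [← AdjoinRoot.mk_C, h5, hΘ, derivative_C, mul_zero, sub_zero, map_mul, ← monomial_zero_left,
      h1, monomial_zero_left, AdjoinRoot.mk_C]
  · have e1 : Δ g = ∑ n ∈ range (g.natDegree + 1), monomial n (δ (g.coeff n)) := by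
      conv_lhs => rw [g.as_sum_range, map_sum]
      exact sum_congr rfl fun n _ => h1 _ _
    have e2 : Δ X = 0 := by rw [← monomial_one_one_eq_X, h1, h6, map_zero]
    rw [← AdjoinRoot.mk_X, h5, hΘ, e2, derivative_X, mul_zero, mul_one, zero_sub, map_neg, e1,
      map_sum]
    refine congrArg Neg.neg (sum_congr rfl fun n _ => ?_)
    rw [← C_mul_X_pow_eq_monomial, map_mul, map_pow, AdjoinRoot.mk_C]

end Vale.Agent.P042.S
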