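import Vale.Agent.P042.A.AdjA

/-! # P042 A/AdjB (TASK; helper names end with _aab): adjoining a root: bounds and points.
`y = root g`.  `fil_of`: `of a * y ^ j = ∑ i, e.repr a i • e' (i, j)`.  `fil_rt`: strong induction on `j` (or induction with a representation `y ^ j = ∑ s < r, of (c s) * y ^ s`, `Fil e (j * (2 m) + m) (c s)`, multiply by `y` and use `y ^ r = -∑ s < r, of (g.coeff s) * y ^ s`: `AdjoinRoot.eval₂_root`, `Monic.as_sum`).
`sa_adj`: `adj_basis`, `adj_der`; `e' (i, j) * e' (i', j') = of (e i * e i') * y ^ (j + j')`; `mk (derivative g) = ∑ n, of (coeff) * y ^ n`; all elements are sums of `of a * y ^ j` with `j ≤ 2 r` and bounded `a`. -/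

namespace Vale.Agent.P042.S

open Finset Polynomial

variable {K A ι : Type} [Field K] [CommRing A] [Algebra K A] [Algebra K[X] A] [IsScalarTower K K[X] A]
  [Fintype ι] {e : Module.Basis ι K[X] A} {δ : A →ₗ[K] A} {m : ℕ}

theorem fil_of {g : A[X]} {r : ℕ} {e' : Module.Basis (ι × Fin r) K[X] (AdjoinRoot g)}
    (he : ∀ i j, e' (i, j) = AdjoinRoot.of g (e i) * AdjoinRoot.root g ^ j.val) {n : ℕ} {a : A}
    (ha : Fil e n a) (j : Fin r) : Fil e' n (AdjoinRoot.of g a * AdjoinRoot.root g ^ j.val) := by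
  have e1 : AdjoinRoot.of g a * AdjoinRoot.root g ^ j.val = ∑ i, e.repr a i • e' (i, j) := by
    conv_lhs => rw [← e.sum_repr a]
    rw [map_sum, sum_mul]
    refine sum_congr rfl fun i _ => ?_
    rw [he, ← AdjoinRoot.smul_of, smul_mul_assoc]
  rw [e1]
  exact Fil.sum fun i _ => Fil.smul (ha i) (fil_basis (i, j))

theorem fil_rt (h : SA e δ m) {g : A[X]} (hg : g.Monic) {r : ℕ} (hr : g.natDegree = r) (h0 : 0 < r)
    (hc : ∀ i, Fil e m (g.coeff i)) {e' : Module.Basis (ι × Fin r) K[X] (AdjoinRoot g)}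
    (he : ∀ i j, e' (i, j) = AdjoinRoot.of g (e i) * AdjoinRoot.root g ^ j.val) {n : ℕ} {a : A}
    (ha : Fil e n a) (j : ℕ) :
    Fil e' (n + j * (2 * m)) (AdjoinRoot.of g a * AdjoinRoot.root g ^ j) := by
  have hy : AdjoinRoot.root g ^ r =
      -∑ s ∈ range r, AdjoinRoot.of g (g.coeff s) * AdjoinRoot.root g ^ s := by
    have h1 := AdjoinRoot.eval₂_root g
    rw [eval₂_eq_sum_range, sum_range_succ, hg.coeff_natDegree, map_one, one_mul, hr] at h1
    exact eq_neg_of_add_eq_zero_right h1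
  induction j using Nat.strong_induction_on generalizing n a with
  | _ j ih =>
    rcases lt_or_ge j r with hj | hj
    · exact (fil_of he ha ⟨j, hj⟩).mono (Nat.le_add_right _ _)
    · obtain ⟨k, rfl⟩ := Nat.exists_eq_add_of_le hj
      have e1 : AdjoinRoot.of g a * AdjoinRoot.root g ^ (r + k) =
          -∑ s ∈ range r, AdjoinRoot.of g (a * g.coeff s) * AdjoinRoot.root g ^ (s + k) := by
        rw [pow_add, hy, neg_mul, mul_neg, sum_mul, mul_sum]
        refine congrArg _ (sum_congr rfl fun s _ => ?_)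
        rw [map_mul, pow_add]
        ring
      rw [e1]
      refine Fil.neg (Fil.sum fun s hs => ?_)
      have hs' := mem_range.1 hs
      refine (ih (s + k) (by omega) (h.fmul ha (hc s))).mono ?_
      have := Nat.mul_le_mul_right (2 * m) (show s + k + 1 ≤ r + k by omega)
      rw [add_mul (s + k) 1, one_mul] at this
      omega

theorem nat_aab {n : ℕ} {a : A} (ha : Fil e n a) (k : ℕ) : Fil e n ((k : A) * a) := by
  have h1 := Fil.smul (c := (k : K[X])) (n' := 0) (natDegree_natCast k).le ha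
  rwa [zero_add, Nat.cast_smul_eq_nsmul, nsmul_eq_mul] at h1

theorem pow_aab {B : Type} [CommRing B] [Algebra K B] {d : B →ₗ[K] B}
    (hd : ∀ a b, d (a * b) = a * d b + d a * b) (y : B) (j : ℕ) :
    d (y ^ j) = (j : B) * y ^ (j - 1) * d y := by
  have h1 : d 1 = 0 := by
    have := hd 1 1
    rw [mul_one, one_mul, mul_one] at this
    exact left_eq_add.1 this
  have h2 : ∀ k : ℕ, d (y ^ (k + 1)) = ((k + 1 : ℕ) : B) * y ^ k * d y := by
    intro k
    induction k with
    | zero => simp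
    | succ k ih =>
      rw [pow_succ, hd, ih]
      push_cast
      ring
  cases j with
  | zero => simp [h1]
  | succ k => exact h2 k

theorem der_aab (h : SA e δ m) {g : A[X]} (hg : g.Monic) {r : ℕ} (hr : g.natDegree = r) (h0 : 0 < r)
    (hc : ∀ i, Fil e m (g.coeff i)) {e' : Module.Basis (ι × Fin r) K[X] (AdjoinRoot g)}
    (he : ∀ i j, e' (i, j) = AdjoinRoot.of g (e i) * AdjoinRoot.root g ^ j.val) {b : A}
    (hb : Fil e m b) {j : ℕ} (hj : j ≤ r) : Fil e' ((4 * r + 10) * m)
      (AdjoinRoot.mk g (derivative g) * AdjoinRoot.of g b * AdjoinRoot.root g ^ j) := by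
  have hd : (derivative g).natDegree < r := by
    have := natDegree_derivative_le g
    omega
  have e1 : AdjoinRoot.mk g (derivative g) * AdjoinRoot.of g b * AdjoinRoot.root g ^ j =
      ∑ s ∈ range r, AdjoinRoot.of g (((s + 1 : ℕ) : A) * g.coeff (s + 1) * b) *
        AdjoinRoot.root g ^ (s + j) := by
    rw [← AdjoinRoot.aeval_eq, aeval_def, eval₂_eq_sum_range' _ hd, sum_mul, sum_mul]
    refine sum_congr rfl fun s _ => ?_
    rw [AdjoinRoot.algebraMap_eq, coeff_derivative, pow_add, Nat.cast_succ, mul_comm (g.coeff _),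
      map_mul _ _ b]
    ring
  rw [e1]
  refine Fil.sum fun s hs => ?_
  have hs' := mem_range.1 hs
  refine (fil_rt h hg hr h0 hc he (h.fmul (nat_aab (hc _) _) hb) (s + j)).mono ?_
  have := Nat.mul_le_mul_right (2 * m) (show s + j ≤ 2 * r by omega)
  nlinarith

theorem sa_adj [Nontrivial A] (h : SA e δ m) {g : A[X]} (hg : g.Monic) {r : ℕ} (hr : g.natDegree = r)
    (h0 : 0 < r) (hc : ∀ i, Fil e m (g.coeff i)) :
    ∃ (e' : Module.Basis (ι × Fin r) K[X] (AdjoinRoot g)) (δ' : AdjoinRoot g →ₗ[K] AdjoinRoot g),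
      SA e' δ' ((4 * r + 10) * m) ∧
      (∀ i j, e' (i, j) = AdjoinRoot.of g (e i) * AdjoinRoot.root g ^ j.val) ∧
      δ' (algebraMap K[X] (AdjoinRoot g) X) =
        AdjoinRoot.mk g (derivative g) * AdjoinRoot.of g (δ (algebraMap K[X] A X)) := by
  obtain ⟨e', he⟩ := adj_basis e hg hr
  obtain ⟨δ', d1, d2, d3⟩ := adj_der (δ := δ) h.leib hg
  have hx : δ' (algebraMap K[X] (AdjoinRoot g) X) =
      AdjoinRoot.mk g (derivative g) * AdjoinRoot.of g (δ (algebraMap K[X] A X)) := by
    rw [AdjoinRoot.algebraMap_eq', RingHom.comp_apply, d2]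
  refine ⟨e', δ', ⟨d1, ?_, ?_, ?_, ?_⟩, he, hx⟩
  · have h1 := fil_rt h hg hr h0 hc he h.one 0
    rw [map_one, pow_zero, mul_one] at h1
    exact h1.mono (by nlinarith)
  · rintro ⟨i, j⟩ ⟨i', j'⟩
    have e1 : e' (i, j) * e' (i', j') =
        AdjoinRoot.of g (e i * e i') * AdjoinRoot.root g ^ (j.val + j'.val) := by
      rw [he, he, map_mul, pow_add]
      ring
    rw [e1]
    refine (fil_rt h hg hr h0 hc he (h.mul i i') _).mono ?_
    have := Nat.mul_le_mul_right (2 * m) (show j.val + j'.val ≤ 2 * r by omega)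
    nlinarith
  · rintro ⟨i, j⟩
    rw [he, d1, d2]
    refine Fil.add ?_ (der_aab h hg hr h0 hc he (h.de i) j.2.le)
    have e1 : AdjoinRoot.of g (e i) * δ' (AdjoinRoot.root g ^ j.val) =
        -∑ s ∈ range (r + 1), AdjoinRoot.of g ((j.val : A) * (e i * δ (g.coeff s))) *
          AdjoinRoot.root g ^ (j.val - 1 + s) := by
      rw [pow_aab d1, d3, hr, mul_neg, mul_neg, mul_sum, mul_sum]
      refine congrArg _ (sum_congr rfl fun s _ => ?_)
      rw [map_mul, map_mul, map_natCast, pow_add]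
      ring
    rw [e1]
    refine Fil.neg (Fil.sum fun s hs => ?_)
    have hs' := mem_range.1 hs
    refine (fil_rt h hg hr h0 hc he (nat_aab (h.fmul (fil_basis i) (h.fder (hc s))) _) _).mono ?_
    have := Nat.mul_le_mul_right (2 * m) (show j.val - 1 + s ≤ 2 * r by omega)
    nlinarith
  · have h1 := der_aab h hg hr h0 hc he h.dx (Nat.zero_le r)
    rwa [pow_zero, mul_one, ← hx] at h1

end Vale.Agent.P042.S
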