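import Vale.Agent.P042.A.Defs

/-! # P042 A/AdjC (TASK; helper names end with _aac): adjoining a root: points.
`adj_pt`: `AdjoinRoot.liftAlgHom`, or `AdjoinRoot.lift` with `commutes'` (`AdjoinRoot.algebraMap_eq'`, `lift_of`, `lift_root`).  `adj_ext`: `AdjoinRoot.induction_on`, `Polynomial.induction_on`, or `AdjoinRoot.ringHom_ext`.
`fib_adj`: choose the points of `adj_pt` for `π ∈ T` and the `r` different roots `η` of `g.map π` (`nodup_roots`, `IsAlgClosed.splits`, `Monic.natDegree_map`); image of `T.sigma` under an injective map (`card_sigma`, `card_image_of_injOn`); the value of `mk (derivative g)` is `(derivative (g.map π)).eval η ≠ 0` (`Separable.aeval_derivative_ne_zero`, `derivative_map`).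
`sa_base`: the coordinate of `a` is `a` (`Module.Basis.singleton_repr`). -/

namespace Vale.Agent.P042.S

open Finset Polynomial

variable {K A : Type} [Field K] [CommRing A] [Algebra K A] [Algebra K[X] A] [IsScalarTower K K[X] A]

theorem adj_pt {g : A[X]} (π : A →ₐ[K] K) {η : K} (h : (g.map (π : A →+* K)).eval η = 0) :
    ∃ π' : AdjoinRoot g →ₐ[K] K, (∀ a, π' (AdjoinRoot.of g a) = π a) ∧ π' (AdjoinRoot.root g) = η := by
  exact ⟨AdjoinRoot.liftAlgHom g π η ((eval_map _ _).symm.trans h), fun a => by simp, by simp⟩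

theorem mk_aac {g : A[X]} {π : A →ₐ[K] K} {π' : AdjoinRoot g →ₐ[K] K}
    (h : ∀ a, π' (AdjoinRoot.of g a) = π a) (p : A[X]) :
    π' (AdjoinRoot.mk g p) = (p.map (π : A →+* K)).eval (π' (AdjoinRoot.root g)) := by
  induction p using Polynomial.induction_on' with
  | add p q hp hq => rw [map_add, map_add, hp, hq, Polynomial.map_add, eval_add]
  | monomial k a =>
    rw [← C_mul_X_pow_eq_monomial, map_mul, map_pow, AdjoinRoot.mk_C, AdjoinRoot.mk_X, map_mul,
      map_pow, h]
    simp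

theorem fib_adj [IsAlgClosed K] {δ : A →ₗ[K] A} {g : A[X]} (hg : g.Monic) {r D : ℕ}
    (hr : g.natDegree = r) {δ' : AdjoinRoot g →ₗ[K] AdjoinRoot g}
    (hδ : δ' (algebraMap K[X] (AdjoinRoot g) X) =
      AdjoinRoot.mk g (derivative g) * AdjoinRoot.of g (δ (algebraMap K[X] A X)))
    {x₀ : K} {T : Finset (A →ₐ[K] K)} (hT : Fib δ D x₀ T)
    (hs : ∀ π ∈ T, (g.map (π : A →+* K)).Separable) : ∃ T', Fib δ' (D * r) x₀ T' := by
  classical
  choose F h1 h2 using fun (x : (π : T) × ((g.map (π.1 : A →+* K)).roots.toFinset)) =>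
    adj_pt (g := g) x.1.1 (η := x.2) (isRoot_of_mem_roots (Multiset.mem_toFinset.1 x.2.2))
  have h3 : Function.Injective F := by
    rintro ⟨π, η⟩ ⟨π', η'⟩ h
    obtain rfl : π = π' := Subtype.ext (AlgHom.ext fun a =>
      (h1 ⟨π, η⟩ a).symm.trans (h ▸ h1 ⟨π', η'⟩ a))
    obtain rfl : η = η' := Subtype.ext ((h2 ⟨π, η⟩).symm.trans (h ▸ h2 ⟨π, η'⟩))
    rfl
  refine ⟨univ.image F, ?_, fun π hπ => ?_, fun π hπ => ?_⟩
  · rw [card_image_of_injective _ h3, card_univ, Fintype.card_sigma,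
      sum_congr rfl (g := fun _ => r) fun π _ => by
        rw [Fintype.card_coe, Multiset.toFinset_card_of_nodup (nodup_roots (hs _ π.2)),
          ← (IsAlgClosed.splits _).natDegree_eq_card_roots, hg.natDegree_map, hr]]
    simp [hT.card]
  · obtain ⟨x, -, rfl⟩ := mem_image.1 hπ
    exact (h1 x _).trans (hT.ov _ x.1.2)
  · obtain ⟨x, -, rfl⟩ := mem_image.1 hπ
    rw [hδ, map_mul, h1, mk_aac (h1 x), h2, ← derivative_map]
    exact mul_ne_zero ((hs _ x.1.2).aeval_derivative_ne_zero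
      (isRoot_of_mem_roots (Multiset.mem_toFinset.1 x.2.2))) (hT.unr _ x.1.2)

theorem sa_base (m : ℕ) :
    SA (Module.Basis.singleton Unit K[X]) (derivative : K[X] →ₗ[K] K[X]) m := by
  refine ⟨fun a b => by rw [derivative_mul, add_comm], ?_, fun _ _ => ?_, fun _ => ?_, ?_⟩ <;>
    simp [Fil]

theorem fib_base (x₀ : K) : Fib (derivative : K[X] →ₗ[K] K[X]) 1 x₀ {aeval x₀} := by
  refine ⟨card_singleton _, ?_, ?_⟩ <;> simp

end Vale.Agent.P042.S
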