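import Vale.Agent.P042.A.Van

/-! # P042 A/AuxE (TASK; helper names end with _aau): the auxiliary element.
`sa_aux`: as `exists_aux` in K/StepA.lean: unknowns `ι × ι × Fin (J + 1) × Fin (N + 1) → K`, equations: the first `N + 2 m ℓ + 2 m + J + 1` coefficients of the coordinates (`Fin ℓ × Fin r × ι × Fin _`); `Fil` bounds: `Fil.smul`, `fil_basis`, `SA.fder` (iterate), `SA.fmul`; `δ^[n]` is linear (`LinearMap.pow_apply`, `Module.End.pow_apply`).
`sa_ne`: least `l` with some `a i j l ≠ 0`; cancel `P ^ l`, `P = (X - C x₀) ^ p` (`smul_right_injective`, the module is free), so `∑ (a i j l • e i) * e j ^ p ∈ P • A ⊆ (ker π) ^ p`; `e j ^ p - algebraMap (π (e j) ^ p) = (e j - algebraMap (π (e j))) ^ p ∈ (ker π) ^ p` (`sub_pow_char`, `CharP A p` from `charP_of_injective_algebraMap`);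
so `B = ∑ i, (∑ j, C (π (e j) ^ p) * a i j l) • e i ∈ (ker π) ^ p`, `Fib.norm_dvd` with `S = {π}`, `SA.norm_deg`, `Algebra.norm_eq_zero_iff`, so all coordinates vanish; for every coefficient index, `∑ j, w j * π (e j) ^ p = 0` with `w j = u j ^ p` (`IsAlgClosed.exists_pow_nat_eq`, `sum_pow_char`), `Fib.inj`. -/

namespace Vale.Agent.P042.S

open Finset Polynomial

variable {K A ι : Type} [Field K] [CommRing A] [Algebra K A] [Algebra K[X] A] [IsScalarTower K K[X] A]
  [Fintype ι] {e : Module.Basis ι K[X] A} {δ : A →ₗ[K] A} {m : ℕ} {x₀ : K}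
  {T : Finset (A →ₐ[K] K)}

theorem ex_aau (δ : A →ₗ[K] A) (c : K[X]) (b g : A) (n : ℕ) :
    ∃ M : K[X] →ₗ[K] A, ∀ u, M u = c • (δ^[n] (u • b) * g) :=
  ⟨((LinearMap.lsmul K[X] A c).restrictScalars K).comp ((LinearMap.mulRight K g).comp
    ((δ ^ n).comp ((LinearMap.toSpanSingleton K[X] A b).restrictScalars K))), fun u => by
      simp [Module.End.pow_apply]⟩

theorem iter_aau (h : SA e δ m) {n : ℕ} {a : A} (ha : Fil e n a) (k : ℕ) :
    Fil e (n + 2 * m * k) (δ^[k] a) := by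
  induction k with
  | zero => exact ha
  | succ k ih =>
    rw [Function.iterate_succ_apply']
    exact (h.fder ih).mono (by rw [mul_add, mul_one, add_assoc])

theorem sa_aux (h : SA e δ m) {r N J ℓ : ℕ} (γ : ι → Fin r → A) (hγ : ∀ j s, Fil e m (γ j s))
    (hc : ℓ * r * (N + 2 * m * ℓ + 2 * m + J + 1) < Fintype.card ι * (J + 1) * (N + 1)) :
    ∃ a : ι → ι → ℕ → K[X], (∀ i j l, (a i j l).natDegree ≤ N) ∧ (∃ i j, ∃ l ≤ J, a i j l ≠ 0) ∧
      ∀ n < ℓ, ∀ s, ∑ i, ∑ j, ∑ l ∈ range (J + 1),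
        ((X - C x₀) ^ l : K[X]) • (δ^[n] (a i j l • e i) * γ j s) = 0 := by
  choose M hM using ex_aau δ
  set B := N + 2 * m * ℓ + 2 * m + J + 1 with hB
  let L : (ι × ι × Fin (J + 1) → degreeLT K (N + 1)) →ₗ[K] (Fin ℓ × Fin r × ι × Fin B → K) :=
    LinearMap.pi fun k => (lcoeff K k.2.2.2).comp (((e.coord k.2.2.1).restrictScalars K).comp
      (∑ q : ι × ι × Fin (J + 1), (M ((X - C x₀) ^ (q.2.2 : ℕ)) (e q.1) (γ q.2.1 k.2.1) k.1).comp
        ((degreeLT K (N + 1)).subtype.comp (LinearMap.proj q))))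
  have : Module.Finite K (degreeLT K (N + 1)) := (degreeLTEquiv K (N + 1)).symm.finiteDimensional
  have : Module.Free K (degreeLT K (N + 1)) := Module.Free.of_divisionRing _ _
  have hD : 0 < Fintype.card ι := Nat.pos_of_ne_zero fun h0 => by simp [h0] at hc
  have hk : LinearMap.ker L ≠ ⊥ := LinearMap.ker_ne_bot_of_finrank_lt (by
    rw [Module.finrank_pi, Module.finrank_pi_fintype, (degreeLTEquiv K (N + 1)).finrank_eq]
    simp only [Fintype.card_prod, Fintype.card_fin, Module.finrank_pi, sum_const, card_univ,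
      smul_eq_mul]
    calc ℓ * (r * (Fintype.card ι * B)) = Fintype.card ι * (ℓ * r * B) := by ring
      _ < Fintype.card ι * (Fintype.card ι * (J + 1) * (N + 1)) := mul_lt_mul_of_pos_left hc hD
      _ = _ := by ring)
  obtain ⟨x, hx, hx0⟩ := (Submodule.ne_bot_iff _).1 hk
  have hd : ∀ q, (x q : K[X]).natDegree ≤ N := fun q =>
    natDegree_le_of_degree_le (Order.le_of_lt_succ (mem_degreeLT.1 (x q).2))
  refine ⟨fun i j l => if h : l < J + 1 then x (i, j, ⟨l, h⟩) else 0, fun i j l => ?_, ?_,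
    fun n hn s => ?_⟩
  · beta_reduce
    split_ifs
    · exact hd _
    · simp
  · obtain ⟨q, hq⟩ := Function.ne_iff.1 hx0
    refine ⟨q.1, q.2.1, q.2.2, Nat.le_of_lt_succ q.2.2.2, ?_⟩
    beta_reduce
    rw [dif_pos q.2.2.2]
    exact fun h => hq (Subtype.ext h)
  · have e1 : ∑ i, ∑ j, ∑ l ∈ range (J + 1), ((X - C x₀) ^ l : K[X]) •
        (δ^[n] ((if h : l < J + 1 then (x (i, j, ⟨l, h⟩) : K[X]) else 0) • e i) * γ j s) =
        ∑ q : ι × ι × Fin (J + 1), ((X - C x₀) ^ (q.2.2 : ℕ) : K[X]) •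
          (δ^[n] ((x q : K[X]) • e q.1) * γ q.2.1 s) := by
      rw [Fintype.sum_prod_type]
      refine sum_congr rfl fun i _ => ?_
      rw [Fintype.sum_prod_type]
      refine sum_congr rfl fun j _ => ?_
      rw [sum_range]
      refine sum_congr rfl fun l _ => ?_
      rw [dif_pos l.2]
    rw [e1]
    have hF : Fil e (N + 2 * m * ℓ + 2 * m + J) (∑ q : ι × ι × Fin (J + 1),
        ((X - C x₀) ^ (q.2.2 : ℕ) : K[X]) • (δ^[n] ((x q : K[X]) • e q.1) * γ q.2.1 s)) := by
      refine Fil.sum fun q _ => ?_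
      have h1 := iter_aau h (Fil.smul (hd q) (fil_basis (e := e) q.1)) n
      have h2 := h.fmul h1 (hγ q.2.1 s)
      have h3 : ((X - C x₀) ^ (q.2.2 : ℕ) : K[X]).natDegree ≤ J := by
        rw [natDegree_pow, natDegree_X_sub_C, mul_one]
        exact Nat.le_of_lt_succ q.2.2.2
      refine (Fil.smul h3 h2).mono ?_
      have h5 := Nat.mul_le_mul_left (2 * m) hn.le
      omega
    refine e.ext_elem fun t => ?_
    rw [map_zero, Finsupp.zero_apply]
    ext k
    rcases lt_or_ge k B with hkB | hkB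
    · have h1 := congrFun (LinearMap.mem_ker.1 hx) (⟨n, hn⟩, s, t, ⟨k, hkB⟩)
      simp only [L, LinearMap.pi_apply, LinearMap.comp_apply, LinearMap.sum_apply, hM,
        LinearMap.restrictScalars_apply, Module.Basis.coord_apply, lcoeff_apply,
        Submodule.subtype_apply, LinearMap.proj_apply, Pi.zero_apply] at h1
      rw [h1, coeff_zero]
    · rw [coeff_zero]
      exact coeff_eq_zero_of_natDegree_lt (lt_of_lt_of_le (Nat.lt_succ_of_le (hF t)) hkB)

theorem canc_aau (e : Module.Basis ι K[X] A) {c : K[X]} (hc : c ≠ 0) {v : A} (h : c • v = 0) :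
    v = 0 := by
  refine e.ext_elem fun i => ?_
  have := congrArg (fun w => e.repr w i) h
  simpa [hc] using this

theorem one_aau [IsDomain A] {p : ℕ} [Fact p.Prime] [CharP K p] (h : SA e δ m)
    (hT : Fib δ (Fintype.card ι) x₀ T) {N : ℕ} (hN : Fintype.card ι * (N + m) < p)
    {c : ι → ι → K[X]} (hc : ∀ i j, (c i j).natDegree ≤ N) {b : A}
    (hb : ∑ i, ∑ j, (c i j • e i) * e j ^ p = ((X - C x₀) ^ p : K[X]) • b)
    {π : A →ₐ[K] K} (hπ : π ∈ T) (i : ι) : ∑ j, C (π (e j) ^ p) * c i j = 0 := by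
  have : CharP A p := charP_of_injective_algebraMap (algebraMap K A).injective p
  have h1 : algebraMap K[X] A (X - C x₀) ∈ RingHom.ker (π : A →+* K) := by
    have := pt_smul π (hT.ov π hπ) (X - C x₀) 1
    rw [Algebra.smul_def, mul_one] at this
    rw [RingHom.mem_ker]
    simpa using this
  have h2 : ((X - C x₀) ^ p : K[X]) • b ∈ (RingHom.ker (π : A →+* K)) ^ p := by
    rw [Algebra.smul_def, map_pow]
    exact Ideal.mul_mem_right _ _ (Ideal.pow_mem_pow h1 p)
  have h3 : ∀ j, e j ^ p - algebraMap K A (π (e j) ^ p) ∈ (RingHom.ker (π : A →+* K)) ^ p := by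
    intro j
    rw [map_pow, ← sub_pow_char]
    refine Ideal.pow_mem_pow ?_ p
    rw [RingHom.mem_ker]
    simp
  have h4 : ∑ i, (∑ j, C (π (e j) ^ p) * c i j) • e i = ((X - C x₀) ^ p : K[X]) • b -
      ∑ i, ∑ j, (c i j • e i) * (e j ^ p - algebraMap K A (π (e j) ^ p)) := by
    rw [← hb, ← sum_sub_distrib]
    refine sum_congr rfl fun i _ => ?_
    rw [← sum_sub_distrib, sum_smul]
    refine sum_congr rfl fun j _ => ?_
    rw [C_mul', smul_assoc, Algebra.smul_def (π (e j) ^ p)]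
    ring
  have h5 : ∑ i, (∑ j, C (π (e j) ^ p) * c i j) • e i ∈ (RingHom.ker (π : A →+* K)) ^ p := by
    rw [h4]
    exact sub_mem h2 (sum_mem fun i _ => sum_mem fun j _ => Ideal.mul_mem_left _ _ (h3 j))
  have h6 := Fib.norm_dvd e hT (S := {π}) (singleton_subset_iff.2 hπ) (ℓ := p)
    (fun π' h' => by rw [mem_singleton.1 h']; exact h5)
  have h7 : Fil e N (∑ i, (∑ j, C (π (e j) ^ p) * c i j) • e i) :=
    Fil.sum fun i _ => (Fil.smul (natDegree_sum_le_of_forall_le _ _ fun j _ =>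
      (natDegree_C_mul_le _ _).trans (hc i j)) (fil_basis i)).mono (le_of_eq (add_zero N))
  have h8 := eq_zero_of_dvd_of_natDegree_lt h6 (by
    rw [natDegree_pow, natDegree_X_sub_C, card_singleton, mul_one, mul_one]
    exact (h.norm_deg h7).trans_lt hN)
  rw [Algebra.norm_eq_zero_iff_of_basis e] at h8
  exact Fintype.linearIndependent_iff.1 e.linearIndependent _ h8 i

theorem key_aau [IsDomain A] [IsAlgClosed K] {p : ℕ} [Fact p.Prime] [CharP K p] (h : SA e δ m)
    (hT : Fib δ (Fintype.card ι) x₀ T) {N : ℕ} (hN : Fintype.card ι * (N + m) < p)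
    {c : ι → ι → K[X]} (hc : ∀ i j, (c i j).natDegree ≤ N) {b : A}
    (hb : ∑ i, ∑ j, (c i j • e i) * e j ^ p = ((X - C x₀) ^ p : K[X]) • b) (i j : ι) :
    c i j = 0 := by
  have hp : 0 < p := (Fact.out : p.Prime).pos
  ext k
  choose u hu using fun j => IsAlgClosed.exists_pow_nat_eq ((c i j).coeff k) hp
  have h1 : u = 0 := Fib.inj e hT fun π hπ => by
    have h2 := congrArg (fun f => coeff f k) (one_aau h hT hN hc hb hπ i)
    simp only [finsetSum_coeff, coeff_C_mul, coeff_zero] at h2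
    refine pow_eq_zero_iff hp.ne' |>.1 ?_
    rw [sum_pow_char, ← h2]
    refine sum_congr rfl fun j _ => ?_
    rw [mul_pow, hu, mul_comm]
  rw [← hu j, h1, Pi.zero_apply, zero_pow hp.ne', coeff_zero]

theorem sa_ne [IsDomain A] [IsAlgClosed K] {p : ℕ} [Fact p.Prime] [CharP K p] (h : SA e δ m)
    (hT : Fib δ (Fintype.card ι) x₀ T) {N J : ℕ} (hN : Fintype.card ι * (N + m) < p)
    {a : ι → ι → ℕ → K[X]} (ha : ∀ i j l, (a i j l).natDegree ≤ N) (h0 : ∃ i j, ∃ l ≤ J, a i j l ≠ 0) :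
    ∑ i, ∑ j, ∑ l ∈ range (J + 1),
      (((X - C x₀) ^ p) ^ l : K[X]) • ((a i j l • e i) * e j ^ p) ≠ 0 := by
  intro hs
  obtain ⟨i₀, j₀, l₀, hl₀, hne⟩ := h0
  refine hne ?_
  have hP : ((X - C x₀) ^ p : K[X]) ≠ 0 := pow_ne_zero _ (X_sub_C_ne_zero x₀)
  have hs' : ∑ l ∈ range (J + 1), (((X - C x₀) ^ p) ^ l : K[X]) •
      ∑ i, ∑ j, (a i j l • e i) * e j ^ p = 0 := by
    rw [← hs]
    simp only [smul_sum]
    rw [sum_comm]
    refine sum_congr rfl fun i _ => ?_
    rw [sum_comm]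
  suffices H : ∀ l ≤ J, ∀ i j, a i j l = 0 from H l₀ hl₀ i₀ j₀
  intro l
  induction l using Nat.strong_induction_on with
  | _ l ih =>
    intro hl
    obtain ⟨k, rfl⟩ := Nat.exists_eq_add_of_le hl
    rw [add_assoc, sum_range_add, sum_range_succ', sum_eq_zero (fun l' hl' => by
      have h1 := mem_range.1 hl'
      simp [ih l' h1 (by omega)]), zero_add, add_zero] at hs'
    refine key_aau h hT hN (fun i j => ha i j l) (b := -∑ x ∈ range k,
      (((X - C x₀) ^ p) ^ x : K[X]) • ∑ i, ∑ j, (a i j (l + (x + 1)) • e i) * e j ^ p) ?_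
    rw [smul_neg, eq_neg_iff_add_eq_zero]
    refine canc_aau e (pow_ne_zero l hP) ?_
    rw [← hs', smul_add, add_comm, smul_sum, smul_sum]
    congr 1
    refine sum_congr rfl fun x _ => ?_
    rw [smul_smul, smul_smul]
    congr 1
    ring

end Vale.Agent.P042.S
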