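import Vale.Agent.P042.A.Van

/-! # P042 A/Der (TASK; helper names end with _ade): derivatives and orders of vanishing.
`ε` from `Fib.idem`, `t = algebraMap (X - C x₀)`, `I = ker π`.  Induction on `ℓ`; `Φ ∈ I ^ j` gives `Φ * ε π ^ j = t ^ j * b` (`ker_pow`), so `Φ = algebraMap (π b) * t ^ j + z` with `z ∈ I ^ (j + 1)` (`1 - ε π ^ j ∈ I`, `b - algebraMap (π b) ∈ I`);
`δ` maps `I ^ (n + 1)` into `I ^ n` (Leibniz, induction, `Submodule.mul_induction_on`), and `δ^[n] (t ^ j) - descFactorial j n * t ^ (j - n) * (δ X) ^ n ∈ I ^ (j - n + 1)` for `n ≤ j` (`SA.dpow`, `SA.dpoly`); so `0 = π b * j ! * π (δ X) ^ j`, and `j ! ≠ 0` in `K`. -/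

namespace Vale.Agent.P042.S

open Finset Polynomial

variable {K A ι : Type} [Field K] [CommRing A] [Algebra K A] [Algebra K[X] A] [IsScalarTower K K[X] A]
  [Fintype ι] {e : Module.Basis ι K[X] A} {δ : A →ₗ[K] A} {m : ℕ} {x₀ : K}
  {T : Finset (A →ₐ[K] K)}

omit [Algebra K[X] A] [IsScalarTower K K[X] A] in
theorem pow_ade (h : ∀ a b, δ (a * b) = a * δ b + δ a * b) (a : A) (j : ℕ) :
    δ (a ^ (j + 1)) = (j + 1 : A) * a ^ j * δ a := by
  induction j with
  | zero => simp
  | succ j ih =>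
    rw [pow_succ, h, ih]
    push_cast
    ring

omit [Algebra K[X] A] [IsScalarTower K K[X] A] in
theorem ideal_ade (h : ∀ a b, δ (a * b) = a * δ b + δ a * b) (I : Ideal A) (n : ℕ) :
    ∀ z ∈ I ^ (n + 1), δ z ∈ I ^ n := by
  induction n with
  | zero => simp
  | succ n ih =>
    intro z hz
    rw [pow_succ] at hz
    refine Submodule.mul_induction_on hz (fun a ha b hb => ?_) fun a b ha hb => ?_
    · rw [h]
      exact add_mem (Ideal.mul_mem_right _ _ ha) (pow_succ I n ▸ Ideal.mul_mem_mul (ih a ha) hb)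
    · rw [map_add]
      exact add_mem ha hb

omit [Algebra K[X] A] [IsScalarTower K K[X] A] in
theorem iter_ade (h : ∀ a b, δ (a * b) = a * δ b + δ a * b) (I : Ideal A) (n : ℕ) :
    ∀ z ∈ I ^ (n + 1), δ^[n] z ∈ I := by
  induction n with
  | zero => simp
  | succ n ih => exact fun z hz => ih _ (ideal_ade h I _ z hz)

omit [Algebra K[X] A] [IsScalarTower K K[X] A] in
theorem lead_ade (h : ∀ a b, δ (a * b) = a * δ b + δ a * b) (π : A →ₐ[K] K) {t : A} (ht : π t = 0)
    (j : ℕ) : ∀ a, π (δ^[j] (t ^ j * a)) = j.factorial * π (δ t) ^ j * π a := by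
  induction j with
  | zero => simp
  | succ j ih =>
    intro a
    have h1 : π (δ^[j] (t ^ (j + 1) * δ a)) = 0 := iter_ade h (RingHom.ker (π : A →+* K)) j _
      (Ideal.mul_mem_right _ _ (Ideal.pow_mem_pow ht _))
    have h2 : (j + 1 : A) * t ^ j * δ t * a = t ^ j * ((j + 1 : A) * δ t * a) := by ring
    rw [Function.iterate_succ_apply, h, pow_ade h, iterate_map_add, map_add, h1, h2, ih,
      Nat.factorial_succ]
    simp only [map_mul, map_add, map_natCast, map_one]
    push_cast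
    ring

theorem Fib.der (h : SA e δ m) (hT : Fib δ (Fintype.card ι) x₀ T) {π : A →ₐ[K] K} (hπ : π ∈ T)
    {ℓ : ℕ} (hℓ : ∀ j, j < ℓ → (j.factorial : K) ≠ 0) {Φ : A} (hΦ : ∀ n, n < ℓ → π (δ^[n] Φ) = 0) :
    Φ ∈ (RingHom.ker (π : A →+* K)) ^ ℓ := by
  classical
  obtain ⟨ε, hε⟩ := hT.idem e
  have h1 : δ 1 = 0 := by simpa using h.leib 1 1
  have h2 : algebraMap K[X] A (X - C x₀) = algebraMap K[X] A X - x₀ • (1 : A) := by
    rw [map_sub, Algebra.smul_def, mul_one, IsScalarTower.algebraMap_apply K K[X] A,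
      algebraMap_eq]
  have h3 : π (algebraMap K[X] A (X - C x₀)) = 0 := by
    rw [h2, map_sub, hT.ov π hπ, map_smul, map_one, smul_eq_mul, mul_one, sub_self]
  have h4 : π (δ (algebraMap K[X] A (X - C x₀))) ≠ 0 := by
    rw [h2, map_sub, map_smul, h1, smul_zero, sub_zero]
    exact hT.unr π hπ
  induction ℓ with
  | zero => simp
  | succ j ih =>
    have h5 := ih (fun i hi => hℓ i (by omega)) fun i hi => hΦ i (by omega)
    obtain ⟨b, hb⟩ := ker_pow e hT (y := ε π)
      (fun π' h' hne => by rw [hε π hπ π' h', if_neg hne.symm]) j h5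
    rw [Algebra.smul_def, map_pow] at hb
    have h6 : Φ * (1 - ε π ^ j) ∈ RingHom.ker (π : A →+* K) ^ (j + 1) := by
      rw [pow_succ]
      refine Ideal.mul_mem_mul h5 ?_
      change π (1 - ε π ^ j) = 0
      rw [map_sub, map_pow, hε π hπ π hπ, if_pos rfl, map_one, one_pow, sub_self]
    have h7 : Φ = algebraMap K[X] A (X - C x₀) ^ j * b + Φ * (1 - ε π ^ j) := by
      rw [← hb]
      ring
    have h8 := hΦ j (Nat.lt_succ_self j)
    have h9 : π (δ^[j] (Φ * (1 - ε π ^ j))) = 0 := iter_ade h.leib _ j _ h6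
    rw [h7, iterate_map_add, map_add, h9, add_zero, lead_ade h.leib π h3] at h8
    rw [h7]
    refine add_mem ?_ h6
    rw [pow_succ]
    exact Ideal.mul_mem_mul (Ideal.pow_mem_pow h3 _) ((mul_eq_zero.1 h8).resolve_left
      (mul_ne_zero (hℓ j (Nat.lt_succ_self j)) (pow_ne_zero _ h4)))

end Vale.Agent.P042.S
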