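import Vale.Agent.P042.A.AuxE
import Vale.Agent.P042.A.Der

/-! # P042 A/Core (TASK; helper names end with _aco): counting with the auxiliary element.
If `S` is empty nothing to prove; otherwise `x₁` is the place of one of its points.  `a` from `sa_aux` (with `x₀ = algebraMap x₁`), `Φ` the sum of `sa_ne`, `Fil e (p J + (N + (p m + m) + m)) Φ`, `Algebra.norm Φ ≠ 0` (`Algebra.norm_eq_zero_iff`), `SA.norm_deg`.
`δ (w ^ p) = 0` (`SA.dpow`, characteristic `p`), so `δ^[n] (y * w ^ p) = δ^[n] y * w ^ p`; at `π ∈ S` over `x`: `pt_smul`, `(x - x₁) ^ p = x - x₁` (`ZMod.pow_card`, `map_pow`), `hζ`, so `π (δ^[n] Φ) = ∑ s, ζ s * π (0) = 0`; `Fib.mem`, `Fib.der` (`j ! ≠ 0` for `j < p`), `Fib.norm_dvd` for the points over each `x`;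
sum over `x` (`card_eq_sum_card_fiberwise`, `le_rootMultiplicity_iff`, `count_roots`, `card_roots'`; or `prod_dvd_of_coprime` with `isCoprime_X_sub_C_of_isUnit_sub`). -/

namespace Vale.Agent.P042.S

open Finset Polynomial

variable {p : ℕ} [Fact p.Prime] {A ι : Type} [CommRing A] [Algebra (KK p) A] [Algebra (KK p)[X] A]
  [IsScalarTower (KK p) (KK p)[X] A] [Fintype ι] {e : Module.Basis ι (KK p)[X] A}
  {δ : A →ₗ[KK p] A} {m : ℕ}

theorem iter_aco [CharP A p] (h : SA e δ m) (y w : A) (n : ℕ) :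
    δ^[n] (y * w ^ p) = δ^[n] y * w ^ p := by
  have h0 : δ (w ^ p) = 0 := by
    have h1 := h.dpow w (p - 1)
    have h2 : p - 1 + 1 = p := Nat.sub_add_cancel (Fact.out : p.Prime).pos
    rw [← Nat.cast_succ, Nat.succ_eq_add_one, h2, CharP.cast_eq_zero, zero_mul, zero_mul] at h1
    exact h1
  induction n with
  | zero => rfl
  | succ n ih => rw [Function.iterate_succ_apply', ih, h.leib, h0, mul_zero, zero_add,
      Function.iterate_succ_apply']

theorem count_aco {K κ : Type} [Field K] {Q : K[X]} (hQ : Q ≠ 0) (S : Finset κ) (f : κ → K)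
    {ℓ : ℕ} [DecidableEq K] (h : ∀ y ∈ S.image f, (X - C y) ^ (ℓ * (S.filter (f · = y)).card) ∣ Q) :
    ℓ * S.card ≤ Q.natDegree := by
  have h1 := natDegree_le_of_dvd (Finset.prod_dvd_of_coprime (fun y _ y' _ hy =>
    (isCoprime_X_sub_C_of_isUnit_sub (sub_ne_zero.2 hy).isUnit).pow) h) hQ
  rw [natDegree_prod_of_monic _ _ fun y _ => (monic_X_sub_C y).pow _] at h1
  simp only [natDegree_pow, natDegree_X_sub_C, mul_one] at h1
  rwa [← mul_sum, ← card_eq_sum_card_image] at h1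

theorem sa_core [IsDomain A] (h : SA e δ m) {r N J ℓ : ℕ} (γ : ι → Fin r → A)
    (hγ : ∀ j s, Fil e m (γ j s)) (hN : Fintype.card ι * (N + m) < p) (hℓ : ℓ ≤ p)
    (hc : ℓ * r * (N + 2 * m * ℓ + 2 * m + J + 1) < Fintype.card ι * (J + 1) * (N + 1))
    (S : Finset (A →ₐ[KK p] KK p))
    (hS : ∀ π ∈ S, ∃ x : ZMod p, π (algebraMap (KK p)[X] A X) = algebraMap _ _ x ∧
      ∃ T, Fib δ (Fintype.card ι) (algebraMap _ _ x) T)
    (hζ : ∀ π ∈ S, ∃ ζ : Fin r → KK p, ∀ j, π (e j) ^ p = ∑ s, π (γ j s) * ζ s) :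
    ℓ * S.card ≤ Fintype.card ι * (p * J + N + p * m + 3 * m) := by
  classical
  rcases S.eq_empty_or_nonempty with rfl | ⟨π₁, h₁⟩
  · simp
  obtain ⟨x₁, -, T₁, hT₁⟩ := hS π₁ h₁
  obtain ⟨a, ha, h0, hv⟩ := sa_aux (x₀ := algebraMap (ZMod p) (KK p) x₁) h γ hγ hc
  have hΦ := sa_ne h hT₁ hN ha h0
  have : CharP A p := charP_of_injective_algebraMap (algebraMap (KK p) A).injective p
  have : Module.Free (KK p)[X] A := .of_basis e
  have : Module.Finite (KK p)[X] A := .of_basis e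
  generalize hP : (X - C (algebraMap (ZMod p) (KK p) x₁) : (KK p)[X]) = P at hv hΦ
  obtain ⟨Φ, hE⟩ : ∃ Φ, Φ = ∑ i, ∑ j, ∑ l ∈ range (J + 1),
    ((P ^ p) ^ l) • ((a i j l • e i) * e j ^ p) := ⟨_, rfl⟩
  rw [← hE] at hΦ
  have hF : Fil e (p * J + (N + 0 + (p * (0 + m) + m) + m)) Φ := by
    rw [hE]
    refine Fil.sum fun i _ => Fil.sum fun j _ => Fil.sum fun l hl => Fil.smul ?_
      (h.fmul (Fil.smul (ha i j l) (fil_basis i)) (h.fpow (fil_basis j) p))
    rw [← hP, natDegree_pow, natDegree_pow, natDegree_X_sub_C, mul_one, mul_comm]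
    exact Nat.mul_le_mul_left p (Nat.lt_succ_iff.1 (mem_range.1 hl))
  have hz : ∀ π ∈ S, ∀ n, n < ℓ → π (δ^[n] Φ) = 0 := fun π hπ n hn => by
    obtain ⟨x, hx, -⟩ := hS π hπ
    obtain ⟨ζ, hζ⟩ := hζ π hπ
    have h1 : P.eval (algebraMap _ _ x) ^ p = P.eval (algebraMap _ _ x) := by
      rw [← hP, eval_sub, eval_X, eval_C, ← map_sub, ← map_pow, ZMod.pow_card]
    have h2 : ∀ i j l, π (δ^[n] (((P ^ p) ^ l) • ((a i j l • e i) * e j ^ p))) =
        ∑ s, ζ s * π ((P ^ l) • (δ^[n] (a i j l • e i) * γ j s)) := fun i j l => by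
      have h3 : ((P ^ p) ^ l) • ((a i j l • e i) * e j ^ p) =
          (a i j l • e i) * ((P ^ l) • e j) ^ p := by
        rw [_root_.smul_pow, mul_smul_comm, pow_right_comm]
      rw [h3, iter_aco h, map_mul, map_pow, pt_smul π hx, mul_pow, hζ, eval_pow, pow_right_comm, h1,
        mul_sum, mul_sum]
      refine sum_congr rfl fun s _ => ?_
      rw [pt_smul π hx, map_mul, eval_pow]
      ring
    have h4 : ∑ s, ζ s * π (∑ i, ∑ j, ∑ l ∈ range (J + 1),
        (P ^ l) • (δ^[n] (a i j l • e i) * γ j s)) = 0 :=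
      sum_eq_zero fun s _ => by rw [hv n hn s, map_zero, mul_zero]
    rw [hE, ← h4, ← Module.End.pow_apply]
    simp only [map_sum, mul_sum, Module.End.pow_apply, h2]
    exact (sum_comm.trans (sum_congr rfl fun i _ => sum_comm.trans
      (sum_congr rfl fun j _ => sum_comm))).symm
  refine (count_aco (Algebra.norm_eq_zero_iff.not.2 hΦ) S
    (fun π => π (algebraMap (KK p)[X] A X)) fun y hy => ?_).trans
    ((h.norm_deg hF).trans (le_of_eq (by ring)))
  obtain ⟨π₀, h₀, rfl⟩ := mem_image.1 hy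
  obtain ⟨x, hx, T, hT⟩ := hS π₀ h₀
  rw [hx]
  have hm : ∀ π ∈ S.filter (fun π => π (algebraMap (KK p)[X] A X) = algebraMap _ _ x), π ∈ T :=
    fun π hπ => hT.mem e (mem_filter.1 hπ).2
  refine hT.norm_dvd e hm fun π hπ => hT.der h (hm π hπ) (fun j hj => ?_)
    (hz π (mem_filter.1 hπ).1)
  rw [Ne, CharP.cast_eq_zero_iff (KK p) p, (Fact.out : p.Prime).dvd_factorial]
  omega

end Vale.Agent.P042.S
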