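import Vale.Agent.P042.W.Basic

/-! # P042 A/Defs: the method of Stepanov and Schmidt for finite free algebras over `K[X]`
(FROZEN, owner helper37).  Overview: notes/P042A.md. -/

namespace Vale.Agent.P042.S

open Finset Polynomial

variable {K A ι : Type} [Field K] [CommRing A] [Algebra K A] [Algebra K[X] A]

/-- All coordinates have degree at most `n`. -/
def Fil (e : Module.Basis ι K[X] A) (n : ℕ) (a : A) : Prop := ∀ i, (e.repr a i).natDegree ≤ n

/-- A basis and a derivation with bounded structure constants. -/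
structure SA (e : Module.Basis ι K[X] A) (δ : A →ₗ[K] A) (m : ℕ) : Prop where
  leib : ∀ a b, δ (a * b) = a * δ b + δ a * b
  one : Fil e m 1
  mul : ∀ i j, Fil e m (e i * e j)
  de : ∀ i, Fil e m (δ (e i))
  dx : Fil e m (δ (algebraMap K[X] A X))

/-- `T` is a set of `D` unramified points over `x₀`. -/
structure Fib (δ : A →ₗ[K] A) (D : ℕ) (x₀ : K) (T : Finset (A →ₐ[K] K)) : Prop where
  card : T.card = D
  ov : ∀ π ∈ T, π (algebraMap K[X] A X) = x₀
  unr : ∀ π ∈ T, π (δ (algebraMap K[X] A X)) ≠ 0

end Vale.Agent.P042.S
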