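import Vale.Agent.P042.A.Defs

/-! # P042 A/FilA (TASK; helper names end with _afa): the filtration.
`map_add`, `map_smul`, `natDegree_add_le`, `natDegree_mul_le`.  `SA.fmul`: write both factors in the basis (`Module.Basis.sum_repr`, `sum_mul_sum`, `smul_mul_smul_comm`), `Fil.sum`, `Fil.smul`.  `SA.dpoly`: `δ 1 = 0` (Leibniz), `Polynomial.induction_on`, `δ` is `K`-linear (`IsScalarTower.algebraMap_apply`, `Algebra.smul_def`).
`SA.fder`: `δ (c • e i) = c • δ (e i) + (derivative c • δ X) * e i`.  `SA.norm_deg`: `Algebra.norm_eq_matrix_det e`, `Algebra.leftMulMatrix_eq_repr_mul`, `Matrix.det_apply'`, `natDegree_prod_le` (see `kM_natDegree` in K/KumA.lean). -/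

namespace Vale.Agent.P042.S

open Finset Polynomial

variable {K A ι : Type} [Field K] [CommRing A] [Algebra K A] [Algebra K[X] A] [IsScalarTower K K[X] A]
  [Fintype ι] {e : Module.Basis ι K[X] A} {δ : A →ₗ[K] A} {m : ℕ}

theorem Fil.mono {n n' : ℕ} {a : A} (h : Fil e n a) (hn : n ≤ n') : Fil e n' a := by
  exact fun i => (h i).trans hn

theorem Fil.add {n : ℕ} {a b : A} (ha : Fil e n a) (hb : Fil e n b) : Fil e n (a + b) := by
  intro i
  rw [map_add, Finsupp.add_apply]
  exact (natDegree_add_le _ _).trans (max_le (ha i) (hb i))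

theorem Fil.neg {n : ℕ} {a : A} (ha : Fil e n a) : Fil e n (-a) := by
  intro i
  rw [map_neg, Finsupp.neg_apply, natDegree_neg]
  exact ha i

theorem fil_zero (n : ℕ) : Fil e n 0 := by
  intro i
  rw [map_zero, Finsupp.zero_apply, natDegree_zero]
  exact Nat.zero_le _

theorem Fil.sum {κ : Type} {s : Finset κ} {f : κ → A} {n : ℕ} (h : ∀ i ∈ s, Fil e n (f i)) :
    Fil e n (∑ i ∈ s, f i) := by
  exact Finset.sum_induction f (Fil e n) (fun _ _ => Fil.add) (fil_zero n) h

theorem Fil.smul {n n' : ℕ} {a : A} {c : K[X]} (hc : c.natDegree ≤ n') (ha : Fil e n a) :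
    Fil e (n' + n) (c • a) := by
  intro i
  rw [map_smul, Finsupp.smul_apply, smul_eq_mul]
  exact natDegree_mul_le.trans (add_le_add hc (ha i))

theorem fil_basis (i : ι) : Fil e 0 (e i) := by
  classical
  intro j
  rw [e.repr_self, Finsupp.single_apply]
  split_ifs <;> simp

theorem SA.mono (h : SA e δ m) {m' : ℕ} (hm : m ≤ m') : SA e δ m' := by
  exact ⟨h.leib, h.one.mono hm, fun i j => (h.mul i j).mono hm, fun i => (h.de i).mono hm,
    h.dx.mono hm⟩

theorem SA.fmul (h : SA e δ m) {n n' : ℕ} {a b : A} (ha : Fil e n a) (hb : Fil e n' b) :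
    Fil e (n + n' + m) (a * b) := by
  rw [← e.sum_repr a, ← e.sum_repr b, sum_mul_sum]
  refine Fil.sum fun i _ => Fil.sum fun j _ => ?_
  rw [smul_mul_smul_comm]
  exact Fil.smul (natDegree_mul_le.trans (add_le_add (ha i) (hb j))) (h.mul i j)

theorem SA.fpow (h : SA e δ m) {n : ℕ} {a : A} (ha : Fil e n a) (j : ℕ) :
    Fil e (j * (n + m) + m) (a ^ j) := by
  induction j with
  | zero =>
    rw [pow_zero, zero_mul, zero_add]
    exact h.one
  | succ j ih =>
    rw [pow_succ]
    exact (h.fmul ih ha).mono (le_of_eq (by ring))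

theorem SA.dpoly (h : SA e δ m) (c : K[X]) :
    δ (algebraMap K[X] A c) = derivative c • δ (algebraMap K[X] A X) := by
  have h1 : δ 1 = 0 := by
    have h2 := h.leib 1 1
    rw [one_mul, one_mul, mul_one] at h2
    exact left_eq_add.1 h2
  induction c using Polynomial.induction_on with
  | C a =>
    rw [derivative_C, zero_smul, C_eq_algebraMap, ← IsScalarTower.algebraMap_apply,
      Algebra.algebraMap_eq_smul_one, map_smul, h1, smul_zero]
  | add p q hp hq => rw [map_add, map_add, hp, hq, derivative_add, add_smul]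
  | monomial n a ih =>
    rw [pow_succ, ← mul_assoc, map_mul, h.leib, ih, derivative_mul (g := X), derivative_X]
    simp only [Algebra.smul_def, map_add, map_mul, map_one]
    ring

theorem SA.dpow (h : SA e δ m) (a : A) (j : ℕ) : δ (a ^ (j + 1)) = (j + 1 : A) * a ^ j * δ a := by
  induction j with
  | zero => simp
  | succ j ih =>
    rw [pow_succ, h.leib, ih, Nat.cast_succ]
    ring

theorem SA.fder (h : SA e δ m) {n : ℕ} {a : A} (ha : Fil e n a) : Fil e (n + 2 * m) (δ a) := by
  rw [← e.sum_repr a, map_sum]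
  refine Fil.sum fun i _ => ?_
  rw [Algebra.smul_def, h.leib, ← Algebra.smul_def, h.dpoly]
  refine ((Fil.smul (ha i) (h.de i)).mono (by omega)).add ?_
  exact (h.fmul (Fil.smul ((natDegree_derivative_le _).trans ((Nat.sub_le _ _).trans (ha i))) h.dx)
    (fil_basis i)).mono (by omega)

theorem SA.norm_deg (h : SA e δ m) {n : ℕ} {a : A} (ha : Fil e n a) :
    (Algebra.norm K[X] a).natDegree ≤ Fintype.card ι * (n + m) := by
  classical
  rw [Algebra.norm_eq_matrix_det e, Matrix.det_apply']
  refine natDegree_sum_le_of_forall_le _ _ fun σ _ => natDegree_mul_le.trans ?_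
  rw [natDegree_intCast, zero_add]
  refine (natDegree_prod_le _ _).trans ((Finset.sum_le_card_nsmul _ _ (n + m) fun i _ => ?_).trans
    (by rw [Finset.card_univ, smul_eq_mul]))
  rw [Algebra.leftMulMatrix_eq_repr_mul]
  exact h.fmul ha (fil_basis i) _

end Vale.Agent.P042.S
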