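import Vale.Agent.P042.A.FilA

/-! # P042 A/Idem (TASK; helper names end with _aid): points over an unramified place.
`pt_smul`: `π (algebraMap c) = c.eval x₀` (`Polynomial.induction_on`, or `algHom_ext` for `π.comp (IsScalarTower.toAlgHom K K[X] A)` and `aeval`).
`Fib.inj`: the square matrix `E π i = π (e i)` (reindex `T ≃ ι` by `Fintype.equivOfCardEq`) has independent rows: if `∑ π, l π * π (e i) = 0` for all `i` then `∑ π, l π * π a = 0` for all `a` (`pt_smul`), and different algebra maps are linearly independent (`linearIndependent_algHom_toLinearMap`, `linearIndependent_monoidHom`);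
so the determinant is nonzero (`Matrix.exists_vecMul_eq_zero_iff`, `Matrix.exists_mulVec_eq_zero_iff`); or count dimensions (`LinearMap.injective_iff_surjective_of_finrank_eq_finrank`).
`Fib.ker`: `w i = (e.repr a i).eval x₀` vanishes, `dvd_iff_isRoot`.  `Fib.idem`: the injective linear map `w ↦ (∑ i, w i * π (e i))_π` between spaces of equal dimension is surjective.
`Fib.mem`: `1 - ∑ ε π` lies in the kernel, so `π₀ (ε π) ≠ 0` for some `π ∈ T`; `(a - π a) * ε π` lies in the kernel, so `π₀ a = π a`. -/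

namespace Vale.Agent.P042.S

open Finset Polynomial

variable {K A ι : Type} [Field K] [CommRing A] [Algebra K A] [Algebra K[X] A] [IsScalarTower K K[X] A]
  [Fintype ι] {e : Module.Basis ι K[X] A} {δ : A →ₗ[K] A} {m : ℕ} {x₀ : K}
  {T : Finset (A →ₐ[K] K)}

theorem pt_smul (π : A →ₐ[K] K) (hπ : π (algebraMap K[X] A X) = x₀) (c : K[X]) (a : A) :
    π (c • a) = c.eval x₀ * π a := by
  rw [Algebra.smul_def, map_mul]
  congr 1
  have h : π.comp (IsScalarTower.toAlgHom K K[X] A) = aeval x₀ :=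
    Polynomial.algHom_ext (by rw [aeval_X]; exact hπ)
  exact (DFunLike.congr_fun h c).trans (congrFun (coe_aeval_eq_eval x₀) c)

theorem ev_aid (e : Module.Basis ι K[X] A) (π : A →ₐ[K] K) (hπ : π (algebraMap K[X] A X) = x₀)
    (a : A) : ∑ i, (e.repr a i).eval x₀ * π (e i) = π a := by
  conv_rhs => rw [← e.sum_repr a, map_sum]
  exact sum_congr rfl fun i _ => (pt_smul π hπ _ _).symm

omit [Algebra K[X] A] [IsScalarTower K K[X] A] in
theorem sep_aid {π π' : A →ₐ[K] K} (h : π ≠ π') : ∃ u, π u = 1 ∧ π' u = 0 := by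
  obtain ⟨a, ha⟩ := DFunLike.ne_iff.1 h
  refine ⟨(π a - π' a)⁻¹ • (a - algebraMap K A (π' a)), ?_, ?_⟩
  · simp [inv_mul_cancel₀ (sub_ne_zero.2 ha)]
  · simp

omit [Algebra K[X] A] [IsScalarTower K K[X] A] in
open Classical in
theorem idem_aid (T : Finset (A →ₐ[K] K)) :
    ∃ ε : (A →ₐ[K] K) → A, ∀ π ∈ T, ∀ π' ∈ T, π' (ε π) = if π = π' then 1 else 0 := by
  choose! u h1 h0 using fun (π π' : A →ₐ[K] K) (h : π ≠ π') => sep_aid h
  refine ⟨fun π => ∏ π' ∈ T.erase π, u π π', fun π _ π' hπ' => ?_⟩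
  rw [map_prod]
  split_ifs with h
  · subst h
    exact prod_eq_one fun τ hτ => h1 _ _ (ne_of_mem_erase hτ).symm
  · exact prod_eq_zero (mem_erase.2 ⟨Ne.symm h, hπ'⟩) (h0 _ _ h)

theorem Fib.inj (e : Module.Basis ι K[X] A) (hT : Fib δ (Fintype.card ι) x₀ T) {w : ι → K}
    (hw : ∀ π ∈ T, ∑ i, w i * π (e i) = 0) : w = 0 := by
  classical
  obtain ⟨ε, hε⟩ := idem_aid T
  let L : (ι → K) →ₗ[K] (T → K) := (Matrix.of fun (π : T) i => π.1 (e i)).mulVecLin
  have hL : ∀ w π, L w π = ∑ i, w i * π.1 (e i) := fun w π =>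
    sum_congr rfl fun i _ => mul_comm _ _
  have h1 : Function.Surjective L := fun v => by
    refine ⟨fun i => (e.repr (∑ τ : T, v τ • ε τ) i).eval x₀, funext fun π => ?_⟩
    rw [hL, ev_aid e _ (hT.ov _ π.2), map_sum, sum_eq_single π (fun τ _ h => by
      rw [map_smul, hε _ τ.2 _ π.2, if_neg fun h' => h (Subtype.ext h'), smul_zero]) (by simp),
      map_smul, hε _ π.2 _ π.2, if_pos rfl, smul_eq_mul, mul_one]
  refine (LinearMap.injective_iff_surjective_of_finrank_eq_finrank ?_).2 h1 ?_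
  · rw [Module.finrank_fintype_fun_eq_card, Module.finrank_fintype_fun_eq_card, Fintype.card_coe,
      hT.card]
  · rw [map_zero]
    exact funext fun π => (hL w π).trans (hw _ π.2)

theorem Fib.ker (e : Module.Basis ι K[X] A) (hT : Fib δ (Fintype.card ι) x₀ T) {a : A}
    (ha : ∀ π ∈ T, π a = 0) : ∃ b, a = (X - C x₀ : K[X]) • b := by
  have h := hT.inj e (w := fun i => (e.repr a i).eval x₀) fun π hπ =>
    (ev_aid e π (hT.ov π hπ) a).trans (ha π hπ)
  choose c hc using fun i => (dvd_iff_isRoot.2 (congrFun h i) : X - C x₀ ∣ e.repr a i)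
  refine ⟨∑ i, c i • e i, ?_⟩
  rw [smul_sum]
  exact (e.sum_repr a).symm.trans (sum_congr rfl fun i _ => by rw [hc, mul_smul])

open Classical in
theorem Fib.idem (e : Module.Basis ι K[X] A) (hT : Fib δ (Fintype.card ι) x₀ T) :
    ∃ ε : (A →ₐ[K] K) → A, ∀ π ∈ T, ∀ π' ∈ T, π' (ε π) = if π = π' then 1 else 0 := by
  exact idem_aid T

theorem Fib.mem (e : Module.Basis ι K[X] A) (hT : Fib δ (Fintype.card ι) x₀ T) {π₀ : A →ₐ[K] K}
    (h : π₀ (algebraMap K[X] A X) = x₀) : π₀ ∈ T := by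
  classical
  obtain ⟨ε, hε⟩ := idem_aid T
  have hk : ∀ a, (∀ π ∈ T, π a = 0) → π₀ a = 0 := fun a ha => by
    obtain ⟨b, rfl⟩ := hT.ker e ha
    rw [pt_smul π₀ h, eval_sub, eval_X, eval_C, sub_self, zero_mul]
  have h1 := hk (1 - ∑ π ∈ T, ε π) fun π hπ => by
    rw [map_sub, map_one, map_sum, sum_congr rfl fun τ hτ => hε τ hτ π hπ, sum_ite_eq', if_pos hπ,
      sub_self]
  rw [map_sub, map_one, map_sum, sub_eq_zero] at h1
  obtain ⟨π, hπ, h2⟩ := exists_ne_zero_of_sum_ne_zero (h1 ▸ one_ne_zero : ∑ π ∈ T, π₀ (ε π) ≠ 0)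
  have h3 : π₀ = π := AlgHom.ext fun a => by
    have h4 := hk ((a - algebraMap K A (π a)) * ε π) fun τ hτ => by
      rw [map_mul, hε π hπ τ hτ]
      split_ifs with h5
      · simp [h5]
      · exact mul_zero _
    rw [map_mul, mul_eq_zero, or_iff_left h2, map_sub, AlgHom.commutes] at h4
    exact sub_eq_zero.1 h4
  exact h3 ▸ hπ

end Vale.Agent.P042.S
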