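import Vale.Agent.P042.A.Defs

/-! # P042 A/Par (TASK; helper names end with _apa): the choice of parameters.
Model: K/StepC.lean.  `ℓ = Nat.sqrt p`, `N = (p - 1) / D - m`, `C₁ = 2 (5 r m + r ^ 2) + 2`, `J = r ℓ / D + C₁`.  For `p ≥ p₀` (`D m + D + r ℓ ≤ p / 2`): `D (N + m) ≤ p - 1`, `D (N + 1) ≥ p - D m`, `D N ≤ p`, `ℓ ≤ ℓ ^ 2 ≤ p`, and `(J + 1) (D (N + 1) - ℓ r) > ℓ r (N + 2 m ℓ + 2 m)` (work in `ℝ`).
Then `s ≤ r p + (D p C₁ + p + D p m + 3 D m) / ℓ`, `p / ℓ ≤ 2 √p`. -/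

namespace Vale.Agent.P042.S

open Finset Polynomial

theorem one_apa {D m r p N J l C a : ℕ} (hl : 1 ≤ l) (h1 : l * l ≤ p) (h2 : 2 * (a + r * l) ≤ p)
    (h3 : p ≤ D * (N + 1) + a) (h4 : r * l + D * C ≤ D * (J + 1)) (h5 : J ≤ r * l + C)
    (hC : C = 2 * (4 * m * r + r * r + r) + 1) :
    l * r * (N + 2 * m * l + 2 * m + J + 1) < D * (J + 1) * (N + 1) := by
  obtain ⟨W, hW⟩ : ∃ W, W = 4 * m * r + r * r + r := ⟨_, rfl⟩
  have e1 : (r * l + D * C) * (N + 1) ≤ D * (J + 1) * (N + 1) := Nat.mul_le_mul_right _ h4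
  have e2 : C * p ≤ C * (D * (N + 1) + a) := Nat.mul_le_mul_left _ h3
  have e3 : C * (2 * (a + r * l)) ≤ C * p := Nat.mul_le_mul_left _ h2
  have e4 : W * (l * l) ≤ W * p := Nat.mul_le_mul_left _ h1
  have e5 : l * r * J ≤ l * r * (r * l + C) := Nat.mul_le_mul_left _ h5
  have e6 : l * r * (2 * m + 1) * 1 ≤ l * r * (2 * m + 1) * l := Nat.mul_le_mul_left _ hl
  have e7 : C * p = 2 * (W * p) + p := by rw [hC, ← hW]; ring
  have e8 : 1 ≤ p := (Nat.mul_pos hl hl).trans_le h1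
  rw [hW] at e4 e7
  nlinarith

theorem sa_par (D m r : ℕ) (hD : 0 < D) : ∃ (C₀ : ℝ) (p₀ : ℕ), 0 ≤ C₀ ∧ ∀ p : ℕ, p₀ ≤ p →
    ∃ N J ℓ : ℕ, D * (N + m) < p ∧ ℓ ≤ p ∧
      ℓ * r * (N + 2 * m * ℓ + 2 * m + J + 1) < D * (J + 1) * (N + 1) ∧
      ∀ s : ℕ, ℓ * s ≤ D * (p * J + N + p * m + 3 * m) → (s : ℝ) ≤ r * p + C₀ * √p := by
  obtain ⟨C, hC⟩ : ∃ C, C = 2 * (4 * m * r + r * r + r) + 1 := ⟨_, rfl⟩
  obtain ⟨E, hE⟩ : ∃ E, E = D * C + 1 + 4 * (D * m) := ⟨_, rfl⟩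
  refine ⟨2 * E, (2 * (D * m + r) + 1) * (2 * (D * m + r) + 1), by positivity, fun p hp => ?_⟩
  have a1 := Nat.le_sqrt.2 hp
  have a2 := Nat.sqrt_le p
  have a3 := Nat.lt_succ_sqrt p
  generalize Nat.sqrt p = l at a1 a2 a3
  have l1 : 1 ≤ l := by omega
  have p1 : 1 ≤ p := (Nat.mul_pos l1 l1).trans_le a2
  have b1 : 2 * (D * m + r * l) ≤ p := by
    have e1 := Nat.mul_le_mul_right l a1
    have e2 := Nat.mul_le_mul_left (D * m) l1
    nlinarith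
  have b2 : m ≤ (p - 1) / D := (Nat.le_div_iff_mul_le hD).2 (by rw [mul_comm]; omega)
  obtain ⟨N, hN⟩ := Nat.exists_eq_add_of_le' b2
  have b3 := Nat.mul_div_le (p - 1) D
  have b4 := Nat.lt_mul_div_succ (p - 1) hD
  rw [hN] at b3 b4
  have b5 := Nat.mul_div_le (r * l) D
  have b6 := Nat.lt_mul_div_succ (r * l) hD
  have b7 := Nat.div_le_self (r * l) D
  generalize r * l / D = j at b5 b6 b7
  have b8 : p ≤ D * (N + 1) + D * m := by
    have : D * (N + m + 1) = D * (N + 1) + D * m := by ring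
    omega
  refine ⟨N, j + C, l, by omega, (Nat.le_mul_self l).trans a2,
    one_apa l1 a2 b1 b8 (by nlinarith) (by omega) hC, fun s hs => ?_⟩
  have c1 : l * s ≤ l * (r * p) + E * p := by
    have e1 := Nat.mul_le_mul_left p b5
    have e2 := Nat.mul_le_mul_left (D * m) p1
    have e3 : D * N ≤ p := (Nat.mul_le_mul_left D (Nat.le_add_right N m)).trans (by omega)
    rw [hE]
    nlinarith
  have c2 : (l : ℝ) * s ≤ l * (r * p) + E * p := by exact_mod_cast c1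
  have c3 : √(p : ℝ) ≤ 2 * l := by
    refine Real.sqrt_le_iff.2 ⟨by positivity, ?_⟩
    have : p ≤ (2 * l) ^ 2 := by nlinarith
    exact_mod_cast this
  have c4 : (p : ℝ) ≤ 2 * l * √p := by
    have := mul_le_mul_of_nonneg_right c3 (Real.sqrt_nonneg p)
    rwa [Real.mul_self_sqrt (by positivity)] at this
  have c5 := mul_le_mul_of_nonneg_left c4 (Nat.cast_nonneg E)
  have l2 : (0 : ℝ) < l := by exact_mod_cast l1
  refine le_of_mul_le_mul_left ?_ l2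
  linarith

end Vale.Agent.P042.S
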