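import Vale.Agent.P042.A.Idem

/-! # P042 A/Van (TASK; helper names end with _ava): orders of vanishing.
`ε` from `Fib.idem`, `t = X - C x₀`.  `ker_pow`: for `a ∈ ker π`, `a * ε π ∈ t • A` (`Fib.ker`); induction on `ℓ` with `Submodule.mul_induction_on` (`pow_succ`).
`Fib.norm_dvd`: with `σ : ι ≃ T`, let `P i j = e.repr (ε (σ j) ^ ℓ) i` and `M = Algebra.leftMulMatrix e Φ`; `M * P` has the columns `e.repr (Φ * ε (σ j) ^ ℓ)`, divisible by `t ^ ℓ` for `σ j ∈ S`, so `t ^ (ℓ |S|) ∣ det M * det P` (`Matrix.det_mul_row`/`det_mul_column` with a diagonal matrix);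
`(det P).eval x₀ ≠ 0` since `E * P(x₀) = 1` for `E π i = π (e i)` (if `ℓ = 0` nothing to prove); `IsCoprime`, `Prime.pow_dvd_of_dvd_mul_right` with `prime_X_sub_C`. -/

namespace Vale.Agent.P042.S

open Finset Polynomial

variable {K A ι : Type} [Field K] [CommRing A] [Algebra K A] [Algebra K[X] A] [IsScalarTower K K[X] A]
  [Fintype ι] {e : Module.Basis ι K[X] A} {δ : A →ₗ[K] A} {m : ℕ} {x₀ : K}
  {T : Finset (A →ₐ[K] K)}

theorem ker_pow (e : Module.Basis ι K[X] A) (hT : Fib δ (Fintype.card ι) x₀ T) {π : A →ₐ[K] K}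
    {y : A} (hy : ∀ π' ∈ T, π' ≠ π → π' y = 0) (ℓ : ℕ) {Φ : A}
    (hΦ : Φ ∈ (RingHom.ker (π : A →+* K)) ^ ℓ) : ∃ b, Φ * y ^ ℓ = ((X - C x₀) ^ ℓ : K[X]) • b := by
  induction ℓ generalizing Φ with
  | zero => exact ⟨Φ, by rw [pow_zero, pow_zero, mul_one, one_smul]⟩
  | succ ℓ ih =>
    rw [pow_succ] at hΦ
    refine Submodule.mul_induction_on hΦ (fun u hu v hv => ?_) fun u v hu hv => ?_
    · obtain ⟨b, hb⟩ := ih hu
      obtain ⟨c, hc⟩ := hT.ker e (a := v * y) fun π' hπ' => by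
        rw [map_mul]
        by_cases h : π' = π
        · rw [h, show π v = 0 from hv, zero_mul]
        · rw [hy π' hπ' h, mul_zero]
      refine ⟨b * c, ?_⟩
      rw [pow_succ, mul_mul_mul_comm, hb, hc, smul_mul_smul_comm, pow_succ]
    · obtain ⟨b, hb⟩ := hu
      obtain ⟨c, hc⟩ := hv
      exact ⟨b + c, by rw [add_mul, hb, hc, smul_add]⟩

theorem det_ava [DecidableEq ι] (e : Module.Basis ι K[X] A) (hT : Fib δ (Fintype.card ι) x₀ T)
    (σ : ι ≃ T) {y : ι → A} (hy : ∀ k j, (σ k).1 (y j) = if k = j then 1 else 0) :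
    ¬ (X - C x₀) ∣ (Matrix.of fun i j => e.repr (y j) i).det := by
  have h1 : (Matrix.of fun k i => (σ k).1 (e i)) *
      (evalRingHom x₀).mapMatrix (Matrix.of fun i j => e.repr (y j) i) = 1 := by
    ext k j
    rw [Matrix.mul_apply, Matrix.one_apply, ← hy k j]
    conv_rhs => rw [← e.sum_repr (y j), map_sum]
    refine Finset.sum_congr rfl fun i _ => ?_
    rw [pt_smul _ (hT.ov _ (σ k).2), mul_comm]
    rfl
  have h2 := congrArg Matrix.det h1
  rw [Matrix.det_mul, Matrix.det_one, ← RingHom.map_det] at h2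
  rw [dvd_iff_isRoot]
  exact right_ne_zero_of_mul_eq_one h2

theorem Fib.norm_dvd (e : Module.Basis ι K[X] A) (hT : Fib δ (Fintype.card ι) x₀ T)
    {S : Finset (A →ₐ[K] K)} (hS : S ⊆ T) {ℓ : ℕ} {Φ : A}
    (hΦ : ∀ π ∈ S, Φ ∈ (RingHom.ker (π : A →+* K)) ^ ℓ) :
    (X - C x₀) ^ (ℓ * S.card) ∣ Algebra.norm K[X] Φ := by
  classical
  rcases Nat.eq_zero_or_pos ℓ with rfl | hℓ
  · rw [zero_mul, pow_zero]
    exact one_dvd _
  obtain ⟨ε, hε⟩ := hT.idem e
  let σ : ι ≃ T := Fintype.equivOfCardEq (by rw [Fintype.card_coe, hT.card])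
  have h1 := det_ava e hT σ (y := fun j => ε (σ j) ^ ℓ) fun k j => by
    rw [map_pow, hε _ (σ j).2 _ (σ k).2]
    by_cases h : k = j
    · rw [if_pos h, if_pos (by rw [h]), one_pow]
    · rw [if_neg h, if_neg fun h' => h (σ.injective (Subtype.ext h')).symm, zero_pow hℓ.ne']
  have h2 : ∀ j, ∃ c, Φ * ε (σ j) ^ ℓ =
      (if (σ j).1 ∈ S then (X - C x₀) ^ ℓ else 1 : K[X]) • c := fun j => by
    split_ifs with h
    · refine ker_pow e hT (fun π' hπ' hne => ?_) ℓ (hΦ _ h)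
      rw [hε _ (σ j).2 _ hπ', if_neg hne.symm]
    · exact ⟨_, (one_smul _ _).symm⟩
  choose c hc using h2
  have h3 : Algebra.leftMulMatrix e Φ * (Matrix.of fun i j => e.repr (ε (σ j) ^ ℓ) i) =
      Matrix.of fun i j => (if (σ j).1 ∈ S then (X - C x₀) ^ ℓ else 1 : K[X]) *
        (Matrix.of fun i j => e.repr (c j) i) i j := by
    refine Matrix.ext fun i j => ?_
    have h4 := congrFun (Algebra.leftMulMatrix_mulVec_repr e Φ (ε (σ j) ^ ℓ)) i
    rw [hc, map_smul, Finsupp.smul_apply, smul_eq_mul] at h4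
    exact h4
  have h5 : ∏ j, (if (σ j).1 ∈ S then (X - C x₀) ^ ℓ else 1 : K[X]) =
      (X - C x₀) ^ (ℓ * S.card) := by
    rw [σ.prod_comp fun π : T => (if π.1 ∈ S then (X - C x₀) ^ ℓ else 1 : K[X]),
      Finset.prod_coe_sort T fun π => (if π ∈ S then (X - C x₀) ^ ℓ else 1 : K[X]),
      Finset.prod_ite_mem, Finset.inter_eq_right.2 hS, Finset.prod_const, pow_mul]
  refine (prime_X_sub_C x₀).pow_dvd_of_dvd_mul_right _ h1 ?_
  rw [Algebra.norm_eq_matrix_det e, ← Matrix.det_mul, h3, Matrix.det_mul_row, h5]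
  exact dvd_mul_right _ _

end Vale.Agent.P042.S
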